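import Mathlib

/-! # A nonconstant power series over a finite field is fixed by no nontrivial substitution close
to the identity -/

namespace Vale.Agent.P261.H609

open PowerSeries

variable {k : Type} [Field k]

theorem taylor_poly (P : Polynomial k) (d : PowerSeries k) (hd : constantCoeff d = 0) :
    ∃ K : PowerSeries k, subst (X + d : PowerSeries k) (P : PowerSeries k) =
      (P : PowerSeries k) + derivative k (P : PowerSeries k) * d + K * d ^ 2 := by
  have h1 : HasSubst (X + d : PowerSeries k) := HasSubst.of_constantCoeff_zero' (by simp [hd])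
  have h2 : ∀ Q : Polynomial k,
      (Q.map (algebraMap k (PowerSeries k))).eval (X : PowerSeries k) = (Q : PowerSeries k) := by
    intro Q
    rw [Polynomial.eval_map_algebraMap]
    have := subst_coe (R := k) (S := k) (a := (X : PowerSeries k)) HasSubst.X' Q
    rw [X_subst] at this
    exact this.symm
  obtain ⟨K, hK⟩ := Polynomial.binomExpansion (P.map (algebraMap k (PowerSeries k))) X d
  refine ⟨K, ?_⟩
  rw [subst_coe h1, ← Polynomial.eval_map_algebraMap, hK, h2, Polynomial.derivative_map, h2,
    derivative_coe]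

theorem taylor (f : PowerSeries k) (d : PowerSeries k) (hd : constantCoeff d = 0) (N : ℕ) :
    ∃ K G : PowerSeries k, subst (X + d : PowerSeries k) f =
      f + derivative k f * d + K * d ^ 2 + X ^ N * G := by
  have h1 : HasSubst (X + d : PowerSeries k) := HasSubst.of_constantCoeff_zero' (by simp [hd])
  obtain ⟨K, hK⟩ := taylor_poly (trunc (N + 1) f) d hd
  have h3 : (X : PowerSeries k) ^ (N + 1) ∣ f - (trunc (N + 1) f : PowerSeries k) := by
    rw [X_pow_dvd_iff]
    intro m hm
    rw [map_sub, Polynomial.coeff_coe, coeff_trunc, if_pos hm, sub_self]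
  obtain ⟨g, hg⟩ := h3
  have hf : f = (trunc (N + 1) f : PowerSeries k) + X ^ (N + 1) * g := by rw [← hg]; ring
  obtain ⟨e, he⟩ : (X : PowerSeries k) ∣ X + d := by
    rw [X_dvd_iff]; simp [hd]
  set P : PowerSeries k := (trunc (N + 1) f : PowerSeries k) with hP
  have h4 : subst (X + d : PowerSeries k) f =
      P + derivative k P * d + K * d ^ 2 + (X + d) ^ (N + 1) * subst (X + d : PowerSeries k) g := by
    conv_lhs => rw [hf]
    rw [subst_add h1, hK, subst_mul h1, subst_pow h1, subst_X h1]
  have h5 : derivative k f = derivative k P + X ^ (N + 1) * derivative k g +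
      ((N + 1 : ℕ) : PowerSeries k) * X ^ N * g := by
    conv_lhs => rw [hf]
    rw [map_add, Derivation.leibniz, Derivation.leibniz_pow, derivative_X]
    simp only [smul_eq_mul, nsmul_eq_mul, Nat.add_sub_cancel, mul_one]
    ring
  refine ⟨K, - X * g - (X * derivative k g + ((N + 1 : ℕ) : PowerSeries k) * g) * d +
    X * e ^ (N + 1) * subst (X + d : PowerSeries k) g, ?_⟩
  rw [h4, h5, he]
  conv_rhs => rw [hf]
  have hd' : d = X * e - X := by rw [← he]; ring
  rw [hd']
  ring

/-- The case of a nonzero derivative. -/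
theorem rigid_of_derivative (f : PowerSeries k) (hf : derivative k f ≠ 0) :
    ∃ R : ℕ, ∀ y : PowerSeries k,
      (∀ i ≤ R, coeff i y = coeff i (X : PowerSeries k)) → subst y f = f → y = X := by
  obtain ⟨R, u, hu, hfu⟩ : ∃ (R : ℕ) (u : PowerSeries k), ¬ X ∣ u ∧
      derivative k f = X ^ R * u := by
    have h1 : FiniteMultiplicity (X : PowerSeries k) (derivative k f) := by
      refine ⟨(derivative k f).order.toNat, fun h => ?_⟩
      have h2 := (X_pow_dvd_iff.1 h) ((derivative k f).order.toNat) (Nat.lt_succ_self _)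
      exact coeff_order hf h2
    obtain ⟨u, hu, hu2⟩ := h1.exists_eq_pow_mul_and_not_dvd
    exact ⟨_, u, hu2, hu⟩
  refine ⟨R, fun y hy hyf => ?_⟩
  obtain ⟨d, rfl⟩ : ∃ d, y = X + d := ⟨y - X, by ring⟩
  have hd0 : ∀ i ≤ R, coeff i d = 0 := fun i hi => by
    have := hy i hi
    rwa [map_add, add_eq_left] at this
  have hc : constantCoeff d = 0 := by
    rw [← coeff_zero_eq_constantCoeff_apply]; exact hd0 0 (Nat.zero_le _)
  have key : ∀ m, R + 1 ≤ m → X ^ m ∣ d → X ^ (m + 1) ∣ d := by
    intro m hm ⟨e, he⟩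
    obtain ⟨K, G, hKG⟩ := taylor f d hc (m + R + 1)
    rw [hyf] at hKG
    have h1 : derivative k f * d = - (K * d ^ 2) - X ^ (m + R + 1) * G := by
      have : derivative k f * d + K * d ^ 2 + X ^ (m + R + 1) * G = 0 := by
        have h2 := hKG
        have h3 : f + derivative k f * d + K * d ^ 2 + X ^ (m + R + 1) * G - f = 0 := by
          rw [← h2]; ring
        rw [← h3]; ring
      linear_combination this
    obtain ⟨c, hc⟩ : ∃ c, m = R + 1 + c := ⟨m - (R + 1), by omega⟩
    have h2 : X ^ (m + R) * (u * e) = X ^ (m + R) * (X * (- (K * X ^ c * e ^ 2) - G)) := by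
      have h3 : X ^ (m + R) * (u * e) = derivative k f * d := by
        rw [hfu, he]; ring
      rw [h3, h1]
      rw [he]
      rw [hc]
      ring
    have h3 := mul_left_cancel₀ (pow_ne_zero _ X_ne_zero) h2
    have h4 : X ∣ u * e := ⟨_, h3⟩
    rcases X_prime.dvd_or_dvd h4 with h5 | ⟨e', rfl⟩
    · exact absurd h5 hu
    · exact ⟨e', by rw [he]; ring⟩
  have hall : ∀ m, R + 1 ≤ m → X ^ m ∣ d := by
    intro m hm
    induction m, hm using Nat.le_induction with
    | base =>
      rw [X_pow_dvd_iff]
      exact fun i hi => hd0 i (Nat.lt_succ_iff.1 hi)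
    | succ m hm ih => exact key m hm ih
  have : d = 0 := by
    ext i
    rw [map_zero]
    exact X_pow_dvd_iff.1 (hall (R + 1 + i) (by omega)) i (by omega)
  rw [this, add_zero]

theorem pow_char_eq (p : ℕ) (hp : p ≠ 0) [ExpChar k p] (g : PowerSeries k) :
    g ^ p = map (frobenius k p) (expand p hp g) :=
  (MvPowerSeries.map_frobenius_expand p hp).symm

/-- A power series with zero derivative is a `p`-th power. -/
theorem exists_pow (p : ℕ) [Fact p.Prime] [CharP k p] [PerfectRing k p] (f : PowerSeries k)
    (hf : derivative k f = 0) : ∃ g : PowerSeries k, f = g ^ p := by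
  have hp0 : p ≠ 0 := (Fact.out : p.Prime).ne_zero
  have h0 : ∀ n, ¬ p ∣ n → coeff n f = 0 := by
    intro n hn
    obtain ⟨m, rfl⟩ : ∃ m, n = m + 1 := by
      rcases n with _ | m
      · exact absurd (dvd_zero p) hn
      · exact ⟨m, rfl⟩
    have h1 := congrArg (coeff m) hf
    rw [coeff_derivative, map_zero] at h1
    rcases mul_eq_zero.1 h1 with h2 | h2
    · exact h2
    · refine absurd ((CharP.cast_eq_zero_iff k p (m + 1)).1 ?_) hn
      rw [← h2]; push_cast; rfl
  refine ⟨mk fun n => (frobeniusEquiv k p).symm (coeff (p * n) f), ?_⟩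
  rw [pow_char_eq p hp0]
  ext n
  rw [coeff_map, coeff_expand]
  split_ifs with h
  · obtain ⟨m, rfl⟩ := h
    rw [Nat.mul_div_cancel_left _ (Nat.pos_of_ne_zero hp0), coeff_mk, frobenius_apply_frobeniusEquiv_symm]
  · rw [h0 n h, map_zero]

theorem rigid_aux (p : ℕ) [Fact p.Prime] [CharP k p] [PerfectRing k p] (n : ℕ) :
    ∀ f : PowerSeries k, 1 ≤ n → coeff n f ≠ 0 → ∃ R : ℕ, ∀ y : PowerSeries k,
      (∀ i ≤ R, coeff i y = coeff i (X : PowerSeries k)) → subst y f = f → y = X := by
  have hp0 : p ≠ 0 := (Fact.out : p.Prime).ne_zero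
  induction n using Nat.strong_induction_on with
  | _ n ih =>
    intro f hn hfn
    by_cases hf : derivative k f = 0
    · obtain ⟨g, rfl⟩ := exists_pow p f hf
      rw [pow_char_eq p hp0, coeff_map, coeff_expand] at hfn
      split_ifs at hfn with h
      · obtain ⟨m, rfl⟩ := h
        have hp2 : 2 ≤ p := (Fact.out : p.Prime).two_le
        have hm : 1 ≤ m := by
          rcases Nat.eq_zero_or_pos m with rfl | h
          · simp at hn
          · exact h
        rw [Nat.mul_div_cancel_left _ (Nat.pos_of_ne_zero hp0)] at hfn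
        obtain ⟨R, hR⟩ := ih m (by nlinarith) g hm (fun h => hfn (by rw [h, map_zero]))
        refine ⟨R, fun y hy hyf => hR y hy ?_⟩
        have hc : constantCoeff y = 0 := by
          rw [← coeff_zero_eq_constantCoeff_apply, hy 0 (Nat.zero_le _), coeff_zero_X]
        have h1 : HasSubst y := HasSubst.of_constantCoeff_zero' hc
        rw [subst_pow h1] at hyf
        have : CharP (PowerSeries k) p := charP_of_injective_algebraMap
          (algebraMap k (PowerSeries k)).injective p
        exact frobenius_inj (PowerSeries k) p hyf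
      · exact absurd (map_zero _) hfn
    · exact rigid_of_derivative f hf

end Vale.Agent.P261.H609

namespace Vale.Agent.P261

theorem rigid {k : Type} [Field k] [Finite k] (f : PowerSeries k)
    (hf : ∃ n, 1 ≤ n ∧ PowerSeries.coeff n f ≠ 0) :
    ∃ R : ℕ, ∀ y : PowerSeries k,
      (∀ i ≤ R, PowerSeries.coeff i y = PowerSeries.coeff i (PowerSeries.X : PowerSeries k)) →
      PowerSeries.subst y f = f → y = PowerSeries.X := by
  obtain ⟨n, hn, hfn⟩ := hf
  obtain ⟨p, hp⟩ := CharP.exists k
  have : Fact p.Prime := ⟨CharP.char_is_prime k p⟩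
  exact H609.rigid_aux p n f hn hfn

end Vale.Agent.P261
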